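import Vale.Agent.P183CH1B.Mat

/-!
The matrix form of block CH1, and finiteness of the data of bounded degree.
-/

namespace Vale.Agent.P183CH

open Matrix Finset Subgroup

/-- The natural representation of the Chevalley group. -/
def Chev.nat (D : Chev) (k : Type) [Field k] : D.grp k →* Matrix (Fin D.n) (Fin D.n) k :=
  (Units.coeHom _).comp (D.grp k).subtype

/-- CH1 in matrix form. -/
def CH1M : Prop :=
  ∀ D : Chev, ∃ (R : RS) (w : Fin D.n → Fin R.r → ℤ) (E : R.Q → ℕ → Matrix (Fin D.n) (Fin D.n) ℤ),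
    ∀ (k : Type) [Field k] [IsAlgClosed k], ∃ Γ : RG R k (D.grp k), Γ.Mat (D.nat k) w E ∧ Γ.Ok ∧
      ∀ (p : ℕ) [Fact p.Prime] [CharP k p] (σ : D.grp k →* D.grp k), D.Stein p σ →
        ∃ π a e f, Γ.St p σ π a e f (D.n * D.n)

end Vale.Agent.P183CH
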