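import Vale.Agent.P183CH1B.Ent
import Mathlib.Data.List.Sort

/-!
The Chevalley relations that follow from an integral root family.
-/

namespace Vale.Agent.P183CH

open Matrix Finset Subgroup

variable {R : RS} {n : ℕ} {w : Fin n → Fin R.r → ℤ} {E : R.Q → ℕ → Matrix (Fin n) (Fin n) ℤ}

theorem RS.Ok.red_of (hR : R.Ok) {γ : R.Q} (hγ : γ ∈ R.Φ) :
    ∀ δ ∈ R.Φ, ∀ a b : ℤ, b ≠ 0 → b • δ = a • γ → δ = γ ∨ δ = -γ := by
  obtain ⟨l, i, rfl⟩ := hR.conj γ hγ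
  clear hγ
  have hs : ∀ j (c : ℤ) x, R.s j (c • x) = c • R.s j x := fun j c x => by
    rw [RS.s, RS.s, smul_sub, smul_smul, RS.pr, smul_vecMul]
    rfl
  have hss : ∀ j x, R.s j (R.s j x) = x := fun j x => by
    have : R.pr (R.s j x) j = -R.pr x j := by
      simp only [RS.s, RS.pr, sub_vecMul, smul_vecMul, RS.α, Pi.sub_apply, Pi.smul_apply,
        single_one_vecMul, row_apply, hR.diag, smul_eq_mul]
      ring
    rw [RS.s, this, RS.s, neg_smul, sub_neg_eq_add, sub_add_cancel]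
  induction l with
  | nil =>
    intro δ hδ a b hb e
    have : δ = δ i • R.α i := funext fun j => by
      by_cases c : j = i
      · simp [c, RS.α]
      · simpa [RS.α, c, hb] using congrFun e j
    rcases hR.red i (δ i) (this ▸ hδ) with h | h <;> rw [this, h] <;> simp
  | cons j l ih =>
    intro δ hδ a b hb e
    rw [List.foldr_cons] at e ⊢
    rcases ih (R.s j δ) (hR.refl j δ hδ) a b hb (by rw [← hs, e, hs, hss]) with h | h
    · exact Or.inl (by rw [← h, hss])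
    · exact Or.inr (by rw [← neg_one_smul ℤ (R.s _ _), ← hs, neg_one_smul, ← h, hss])

theorem RS.Ok.exists_minor (hR : R.Ok) {γ δ : R.Q} (hγ : γ ∈ R.Φ) (hδ : δ ∈ R.Φ) (h1 : 0 ≤ γ)
    (h2 : 0 ≤ δ) (h : γ ≠ δ) : ∃ i j, R.pr γ i * R.pr δ j - R.pr γ j * R.pr δ i ≠ 0 := by
  by_contra c
  push Not at c
  obtain ⟨i, hi⟩ : ∃ i, R.pr γ i ≠ 0 := Function.ne_iff.1 fun e : R.pr γ = 0 =>
    (hR.sign γ hγ).1 (hR.pr_inj (e.trans (zero_vecMul _).symm))
  rcases hR.red_of hγ δ hδ (R.pr δ i) _ hi (hR.pr_inj (funext fun j => by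
    have := c i j
    simp only [RS.pr, smul_vecMul, Pi.smul_apply, smul_eq_mul] at this ⊢
    linarith)) with e | e
  · exact h e.symm
  · exact (hR.sign γ hγ).1 (le_antisymm (neg_nonneg.1 (e ▸ h2)) h1)

theorem RF.peel (h : RF R w E) (hR : R.Ok) : ∀ (l : List R.Q) (c : List ℂ)
    (M : Matrix (Fin n) (Fin n) ℤ), l.Nodup → (∀ γ ∈ l, γ ∈ R.Φ ∧ 0 ≤ γ) →
    l.Pairwise (fun γ δ => ∑ i, γ i ≤ ∑ i, δ i) → c.length = l.length →
    ((l.zip c).map fun e => xm (E e.1) e.2).prod = (Int.castRingHom ℂ).mapMatrix M →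
    ∃ L : List (R.Q × ℤ), L.map Prod.fst = l ∧ (L.map fun e => xm (E e.1) e.2).prod = M
  | [], _, M, _, _, _, _, e => ⟨[], rfl, Matrix.map_injective (f := (Int.cast : ℤ → ℂ))
      Int.cast_injective (((Int.castRingHom ℂ).mapMatrix.map_one).trans e)⟩
  | _ :: _, [], _, _, _, _, e, _ => by simp at e
  | γ :: l, x :: c, M, h1, h2, h3, h4, e => by
    obtain ⟨hγ, h0⟩ := h2 γ List.mem_cons_self
    have h5 : (((γ :: l).zip (x :: c)).map Prod.fst) = γ :: l := List.map_fst_zip h4.ge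
    obtain ⟨z, rfl⟩ : ∃ z : ℤ, x = z := h.int_of hγ fun a b => by
      by_cases h6 : E γ 1 a b = 0
      · exact ⟨0, by simp [h6]⟩
      have := (h.prod_entry hR (hR.sum_pos hγ h0) ((γ :: l).zip (x :: c)) fun e he => by
        have h7 := (List.of_mem_zip (a := e.1) (b := e.2) he).1
        refine ⟨(h2 _ h7).1, Or.inr ?_⟩
        rcases List.mem_cons.1 h7 with h8 | h8
        · rw [h8]
        · exact List.rel_of_pairwise_cons h3 h8).2 a b (h.deg γ hγ a b h6)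
      rw [sum_ite_nodup ((γ :: l).zip (x :: c)) (h5.symm ▸ h1) (γ, x) List.mem_cons_self, e,
        ← (Int.castRingHom ℂ).mapMatrix.map_one, ← map_sub] at this
      exact ⟨_, this.symm⟩
    rw [List.zip_cons_cons, List.map_cons, List.prod_cons] at e
    have inv : ∀ {K : Type} [CommRing K] (t u : K), t + u = 0 → xm (E γ) t * xm (E γ) u = 1 :=
      fun t u e => by rw [← h.add hγ, e, h.xm_zero hγ]
    obtain ⟨L, h6, h7⟩ := h.peel hR l c (xm (E γ) (-z) * M) h1.of_cons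
      (fun δ hδ => h2 δ (List.mem_cons_of_mem _ hδ)) h3.of_cons (by simpa using h4)
      (by rw [map_mul, ← e, xm_map, ← mul_assoc, inv _ _ (by simp), one_mul])
    exact ⟨(γ, z) :: L, by simp [h6], by
      rw [List.map_cons, List.prod_cons, h7, ← mul_assoc, inv _ _ (add_neg_cancel z), one_mul]⟩

theorem RF.chain (h : RF R w E) (hR : R.Ok) {S : Set R.Q} (hS : ∀ γ ∈ S, γ ∈ R.Φ ∧ 0 ≤ γ)
    (hc : ∀ γ ∈ S, ∀ δ ∈ S, γ + δ ∈ R.Φ → γ + δ ∈ S) : ∀ l : List R.Q, (∀ γ ∈ l, γ ∈ S) →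
    l.Pairwise (fun γ δ => ∑ i, γ i ≤ ∑ i, δ i) →
    (∀ z ∈ S, ∀ y ∈ l, ∑ i, y i < ∑ i, z i → z ∈ l) →
    Chain (l.map fun γ => (E γ 1).map (Int.cast : ℤ → ℂ))
  | [], _, _, _ => trivial
  | γ :: l, h1, h2, h3 => by
    obtain ⟨hγ, h0⟩ := hS γ (h1 γ List.mem_cons_self)
    have h4 : ∀ z ∈ S, ∀ y ∈ l, ∑ i, y i < ∑ i, z i → z ∈ l := fun z hz y hy e =>
      (List.mem_cons.1 (h3 z hz y (List.mem_cons_of_mem _ hy) e)).resolve_left fun c =>
        (List.rel_of_pairwise_cons h2 hy).not_gt (c ▸ e)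
    refine ⟨⟨n, by simpa using h.nilK hγ ℂ 1⟩, fun y hy => ?_,
      h.chain hR hS hc l (fun δ hδ => h1 δ (List.mem_cons_of_mem _ hδ)) h2.of_cons h4⟩
    obtain ⟨δ, hδ, rfl⟩ := List.mem_map.1 hy
    have hδS := h1 δ (List.mem_cons_of_mem _ hδ)
    obtain ⟨c, g1, g2⟩ := h.br γ hγ δ (hS δ hδS).1 h0 (hS δ hδS).2
    have := (Int.castRingHom ℂ).mapMatrix.map_sub (E γ 1 * E δ 1) (E δ 1 * E γ 1)
    rw [map_mul, map_mul] at this
    refine (this.symm.trans g2).symm ▸ ?_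
    by_cases e : γ + δ ∈ R.Φ
    · refine Submodule.smul_mem _ _ (Submodule.subset_span (List.mem_map.2 ⟨γ + δ,
        h4 _ (hc _ (h1 γ List.mem_cons_self) _ hδS e) δ hδ ?_, rfl⟩))
      have := hR.sum_pos hγ h0
      simp only [Pi.add_apply, sum_add_distrib]
      omega
    · rw [g1 e, zero_smul]
      exact zero_mem _

/-- The commutator formula over the integers. -/
theorem RF.comm_int (h : RF R w E) (hR : R.Ok) {γ δ : R.Q} (hγ : γ ∈ R.Φ) (hδ : δ ∈ R.Φ)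
    (h1 : 0 ≤ γ) (h2 : 0 ≤ δ) (hne : γ ≠ δ) (hle : ∑ i, δ i ≤ ∑ i, γ i) :
    ∃ L : List (R.Q × ℤ), (∀ e ∈ L, e.1 ∈ R.Φ ∧ ∃ a b : ℕ, 0 < a ∧ 0 < b ∧ e.1 = a • γ + b • δ) ∧
      xm (E γ) (1 : ℤ) * xm (E δ) 1 * xm (E γ) (-1) =
        xm (E δ) 1 * (L.map fun e => xm (E e.1) e.2).prod := by
  classical
  let S' : Finset R.Q := R.Φ.filter fun ε => ∃ a b : ℕ, 0 < a ∧ 0 < b ∧ ε = a • γ + b • δ
  let S : Set R.Q := {ε | ε ∈ R.Φ ∧ ∃ a b : ℕ, 0 < b ∧ ε = a • γ + b • δ}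
  let r : R.Q → R.Q → Prop := fun γ δ => ∑ i, γ i ≤ ∑ i, δ i
  have : Std.Total r := ⟨fun _ _ => le_total _ _⟩
  have : IsTrans _ r := ⟨fun _ _ _ => le_trans⟩
  let l := S'.toList.insertionSort r
  have hl : ∀ ε, ε ∈ l ↔ ε ∈ S' := fun ε => by simp [l]
  have pγ := hR.sum_pos hγ h1
  have pδ := hR.sum_pos hδ h2
  have hlt : ∀ ε ∈ l, ∑ i, δ i < ∑ i, ε i := fun ε hε => by
    obtain ⟨-, a, b, ha, hb, rfl⟩ := mem_filter.1 ((hl ε).1 hε)
    simp only [Pi.add_apply, Pi.smul_apply, sum_add_distrib, ← smul_sum]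
    simp only [nsmul_eq_mul]
    have : (1 : ℤ) ≤ a := by exact_mod_cast ha
    have : (1 : ℤ) ≤ b := by exact_mod_cast hb
    nlinarith
  have hS : ∀ ε ∈ S, ε ∈ R.Φ ∧ 0 ≤ ε := by
    rintro _ ⟨g, a, b, -, rfl⟩
    exact ⟨g, add_nonneg (nsmul_nonneg h1 a) (nsmul_nonneg h2 b)⟩
  have hmem : ∀ ε, ε ∈ δ :: l ↔ ε ∈ S := fun ε => by
    rw [List.mem_cons, hl, mem_filter]
    refine ⟨?_, ?_⟩
    · rintro (rfl | ⟨g, a, b, -, hb, e⟩)
      · exact ⟨hδ, 0, 1, one_pos, by simp⟩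
      · exact ⟨g, a, b, hb, e⟩
    · rintro ⟨g, a, b, hb, e⟩
      rcases a.eq_zero_or_pos with rfl | ha
      · rcases hR.red_of hδ ε g b 1 one_ne_zero (by simp [e]) with c | c
        · exact Or.inl c
        · exact absurd (le_antisymm (neg_nonneg.1 (c ▸ (hS ε ⟨g, 0, b, hb, e⟩).2)) h2)
            (hR.sign δ hδ).1
      · exact Or.inr ⟨g, a, b, ha, hb, e⟩
  have hp : (δ :: l).Pairwise r :=
    List.pairwise_cons.2 ⟨fun ε hε => (hlt ε hε).le, List.pairwise_insertionSort r _⟩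
  have hn : (δ :: l).Nodup := List.nodup_cons.2 ⟨fun c => lt_irrefl _ (hlt δ c),
    (List.perm_insertionSort r _).nodup_iff.2 S'.nodup_toList⟩
  have hch := h.chain hR hS (by
    rintro _ ⟨-, a, b, hb, rfl⟩ _ ⟨-, a', b', -, rfl⟩ g
    exact ⟨g, a + a', b + b', by omega, by rw [add_smul, add_smul]; abel⟩) (δ :: l)
    (fun ε hε => (hmem ε).1 hε) hp fun z hz _ _ _ => (hmem z).2 hz
  let e : R.Q → Matrix (Fin n) (Fin n) ℂ := fun γ => (E γ 1).map (Int.cast : ℤ → ℂ)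
  have nγ : IsNilpotent ((1 : ℂ) • e γ) := ⟨n, h.nilK hγ ℂ 1⟩
  have nδ : IsNilpotent ((1 : ℂ) • e δ) := ⟨n, h.nilK hδ ℂ 1⟩
  let u : (Matrix (Fin n) (Fin n) ℂ)ˣ := ⟨_, _, IsNilpotent.exp_mul_exp_neg_self nγ,
    IsNilpotent.exp_neg_mul_exp_self nγ⟩
  have hY := exp_conj_mem (Submodule.span ℂ {z | z ∈ (δ :: l).map e}) nγ (y := (1 : ℂ) • e δ)
    (fun y hy => by
      rw [one_smul]
      induction hy using Submodule.span_induction with
      | mem z hz =>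
        obtain ⟨ε, hε, rfl⟩ := List.mem_map.1 hz
        obtain ⟨g, a, b, hb, rfl⟩ := (hmem ε).1 hε
        obtain ⟨c, g1, g2⟩ := h.br γ hγ _ g h1 (hS _ ⟨g, a, b, hb, rfl⟩).2
        have := (Int.castRingHom ℂ).mapMatrix.map_sub (E γ 1 * E (a • γ + b • δ) 1)
          (E (a • γ + b • δ) 1 * E γ 1)
        rw [map_mul, map_mul] at this
        refine (this.symm.trans g2).symm ▸ ?_
        by_cases c : γ + (a • γ + b • δ) ∈ R.Φ
        · exact Submodule.smul_mem _ _ (Submodule.subset_span (List.mem_map.2 ⟨_,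
            (hmem _).2 ⟨c, a + 1, b, hb, by rw [succ_nsmul]; abel⟩, rfl⟩))
        · rw [g1 c, zero_smul]
          exact zero_mem _
      | zero => simp
      | add u v _ _ hu hv => rw [mul_add, add_mul, add_sub_add_comm]; exact add_mem hu hv
      | smul r u _ hu =>
        rw [smul_mul_assoc, mul_smul_comm, ← smul_sub]
        exact Submodule.smul_mem _ _ hu)
    (Submodule.smul_mem _ _ (Submodule.subset_span (List.mem_map_of_mem List.mem_cons_self)))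
  let f := MulSemiringAction.toRingHom (ConjAct (Matrix (Fin n) (Fin n) ℂ)ˣ)
    (Matrix (Fin n) (Fin n) ℂ) (ConjAct.toConjAct u)
  obtain ⟨c, g1, g2⟩ := exp_eq_prod hch (nδ.map f) hY
  rw [← IsNilpotent.map_exp nδ f] at g2
  have g3 : (((δ :: l).zip c).map fun e => xm (E e.1) e.2).prod = (Int.castRingHom ℂ).mapMatrix
      (xm (E γ) (1 : ℤ) * xm (E δ) 1 * xm (E γ) (-1)) := by
    rw [map_mul, map_mul, xm_map, xm_map, xm_map, map_neg, map_one, ← h.exp_eq hγ, ← h.exp_eq hγ,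
      ← h.exp_eq hδ, neg_smul]
    refine Eq.trans (congrArg List.prod ?_) g2.symm
    rw [List.zipWith_map_right, List.zipWith_comm, List.zip, List.map_zipWith]
    refine List.ext_getElem (by simp) fun i i1 i2 => ?_
    rw [List.getElem_zipWith, List.getElem_zipWith,
      h.exp_eq (hS _ ((hmem _).1 (List.getElem_mem _))).1]
  obtain ⟨L, g4, g5⟩ := h.peel hR _ c _ hn (fun ε hε => hS ε ((hmem ε).1 hε)) hp
    (by simpa using g1) g3
  obtain _ | ⟨⟨δ', z⟩, L⟩ := L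
  · simp at g4
  obtain ⟨rfl, g6⟩ := List.cons.inj g4
  refine ⟨L, fun e he => mem_filter.1 ((hl _).1 (g6 ▸ List.mem_map_of_mem he)), ?_⟩
  obtain ⟨a, b, hab⟩ := h.exists_entry hδ ℚ
  have hab : E δ' 1 a b ≠ 0 := fun c => hab (by rw [c, Int.cast_zero])
  have k1 := (h.prod_entry hR pδ ((δ', z) :: L) fun e he => by
    have := List.mem_map_of_mem (f := Prod.fst) he
    rw [g4] at this
    refine ⟨(hS _ ((hmem _).1 this)).1, Or.inr ?_⟩
    rcases List.mem_cons.1 this with c | c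
    · rw [c]
    · exact (hlt _ c).le).2 a b (h.deg _ hδ a b hab)
  have k2 := (h.prod_entry hR pδ [(γ, (1 : ℤ)), (δ', 1), (γ, -1)] (by simp [*])).2 a b
    (h.deg _ hδ a b hab)
  rw [sum_ite_nodup _ (g4.symm ▸ hn) (δ', z) List.mem_cons_self, g5] at k1
  simp only [List.map_cons, List.map_nil, List.prod_cons, List.prod_nil, mul_one, ← mul_assoc,
    hne, if_false, if_true, List.sum_cons, List.sum_nil, zero_add, add_zero, k1] at k2
  rw [← g5, mul_right_cancel₀ (by simpa using hab) k2]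
  rfl

namespace RG.Mat

variable {k G : Type} [Field k] [Group G] {Γ : RG R k G} {ρ : G →* Matrix (Fin n) (Fin n) k}
  (h : Γ.Mat ρ w E)
include h

theorem add (γ : R.Q) (hγ : γ ∈ R.Φ) (t u : k) : Γ.x γ (t + u) = Γ.x γ t * Γ.x γ u :=
  h.inj (by rw [map_mul, h.x_eq γ hγ, h.x_eq γ hγ, h.x_eq γ hγ, h.rf.add hγ])

theorem x_zero {γ : R.Q} (hγ : γ ∈ R.Φ) : Γ.x γ 0 = 1 :=
  h.inj (by rw [h.x_eq γ hγ, h.rf.xm_zero hγ, map_one])

theorem x_neg {γ : R.Q} (hγ : γ ∈ R.Φ) (t : k) : Γ.x γ (-t) = (Γ.x γ t)⁻¹ :=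
  eq_inv_of_mul_eq_one_left (by rw [← h.add γ hγ, neg_add_cancel, h.x_zero hγ])

theorem hh (i j : Fin R.r) (t u : kˣ) : Commute (Γ.h i t) (Γ.h j u) :=
  h.inj (by
    rw [map_mul, map_mul, h.h_eq, h.h_eq, diagonal_mul_diagonal, diagonal_mul_diagonal]
    simp only [mul_comm])

theorem hx (i : Fin R.r) (t : kˣ) (γ : R.Q) (hγ : γ ∈ R.Φ) (u : k) :
    Γ.h i t * Γ.x γ u * (Γ.h i t)⁻¹ = Γ.x γ ((t ^ R.pr γ i : kˣ) * u) := by
  rw [mul_inv_eq_iff_eq_mul]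
  refine h.inj ?_
  rw [map_mul, map_mul, h.h_eq, h.x_eq γ hγ, h.x_eq γ hγ]
  ext a b
  simp only [diagonal_mul, mul_diagonal, xm, Matrix.sum_apply, Matrix.smul_apply, Matrix.map_apply,
    smul_eq_mul, mul_sum, sum_mul]
  refine sum_congr rfl fun m _ => ?_
  by_cases c : E γ m a b = 0
  · simp [c]
  · rw [h.rf.deg' hγ m a b c, Pi.add_apply, Pi.smul_apply, zpow_add, nsmul_eq_mul, mul_comm (m : ℤ),
      zpow_mul, zpow_natCast, Units.val_mul, Units.val_pow_eq_pow_val]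
    ring

theorem prod_eq (l : List (R.Q × k)) (hl : ∀ e ∈ l, e.1 ∈ R.Φ) :
    ρ (l.map fun e => Γ.x e.1 e.2).prod = (l.map fun e => xm (E e.1) e.2).prod := by
  rw [map_list_prod, List.map_map]
  exact congrArg _ (List.map_congr_left fun e he => h.x_eq _ (hl e he) _)

theorem uniq (l : List (R.Q × k)) (h1 : (l.map Prod.fst).Nodup) (h2 : ∀ e ∈ l, e.1 ∈ R.Φ ∧ 0 ≤ e.1)
    (h3 : (l.map fun e => Γ.x e.1 e.2).prod = 1) : ∀ e ∈ l, e.2 = 0 := by
  by_contra c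
  push Not at c
  obtain ⟨e, ⟨he, h0⟩, hm⟩ := Set.exists_min_image {e | e ∈ l ∧ e.2 ≠ 0} (fun e => ∑ i, e.1 i)
    (l.finite_toSet.subset fun _ h => h.1) c
  obtain ⟨a, b, hab⟩ := h.rf.exists_entry (h2 e he).1 k
  have := (h.rf.prod_entry h.ok (h.ok.sum_pos (h2 e he).1 (h2 e he).2) l fun x hx =>
    ⟨(h2 x hx).1, or_iff_not_imp_left.2 fun c => hm x ⟨hx, c⟩⟩).2 a b
    (h.rf.deg _ (h2 e he).1 a b fun c => hab (by rw [c, Int.cast_zero]))
  rw [sum_ite_nodup l h1 e he, ← h.prod_eq l fun x hx => (h2 x hx).1, h3, map_one, sub_self] at this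
  exact mul_ne_zero h0 hab this.symm

theorem fl_X (s : ℤ) {S : Set R.Q} (hS : ∀ γ ∈ S, γ ∈ R.Φ → 0 < s * ∑ i, γ i) {g : G}
    (hg : g ∈ Γ.X S) : Fl (fun a => s * R.wht (w a)) 1 (ρ g - 1) := by
  have key : ∀ γ ∈ S, γ ∈ R.Φ → ∀ t, Fl (fun a => s * R.wht (w a)) 1 (ρ (Γ.x γ t) - 1) :=
    fun γ h1 hγ t a b e => by
      rw [h.x_eq γ hγ] at e
      obtain ⟨m, hm, h5⟩ := h.rf.supp hγ t a b e
      have hD : 0 < R.A.det ^ 2 := by have := h.ok.det; positivity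
      have : 0 < R.A.det ^ 2 * (m * (s * ∑ i, γ i)) :=
        mul_pos hD (mul_pos (by exact_mod_cast hm) (hS γ h1 hγ))
      dsimp only
      rw [wht_eq h5]
      nlinarith
  induction hg using closure_induction'' with
  | mem x hx =>
    obtain ⟨γ, h1, hγ, t, rfl⟩ := hx
    exact key γ h1 hγ t
  | inv_mem x hx =>
    obtain ⟨γ, h1, hγ, t, rfl⟩ := hx
    exact h.x_neg hγ t ▸ key γ h1 hγ _
  | one => exact fun a b e => absurd (by simp) e
  | mul x y _ _ hx hy => exact map_mul ρ x y ▸ hx.mul_sub zero_le_one hy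

theorem fl_U {g : G} (hg : g ∈ Γ.U) : Fl (fun a => 1 * R.wht (w a)) 1 (ρ g - 1) :=
  h.fl_X 1 (fun γ h1 hγ => by simpa using h.ok.sum_pos hγ h1) hg

theorem fl_V {g : G} (hg : g ∈ Γ.V) : Fl (fun a => -1 * R.wht (w a)) 1 (ρ g - 1) :=
  h.fl_X (-1) (fun γ h1 hγ => by
    obtain ⟨i, hi⟩ := Function.ne_iff.1 (h.ok.sign γ hγ).1
    have := sum_neg' (fun j _ => h1 j) ⟨i, mem_univ _, (h1 i).lt_of_ne hi⟩
    simpa using this) hg

theorem diag_T {g : G} (hg : g ∈ Γ.T) : ∃ d, ρ g = diagonal d := by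
  induction hg using closure_induction'' with
  | mem x hx =>
    obtain ⟨i, t, rfl⟩ := hx
    exact ⟨_, h.h_eq i t⟩
  | inv_mem x hx =>
    obtain ⟨i, t, rfl⟩ := hx
    exact ⟨_, map_inv (Γ.h i) t ▸ h.h_eq i _⟩
  | one => exact ⟨fun _ => 1, by simp⟩
  | mul x y _ _ hx hy =>
    obtain ⟨d, hd⟩ := hx
    obtain ⟨d', hd'⟩ := hy
    exact ⟨_, by rw [map_mul, hd, hd', diagonal_mul_diagonal]⟩

omit h in
theorem diag_of {ht : Fin n → ℤ} {M : Matrix (Fin n) (Fin n) k} (hM : Fl ht 1 (M - 1)) (a : Fin n) :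
    M a a = 1 := by
  by_contra c
  have := hM a a (by simpa [sub_eq_zero] using c)
  omega

theorem tri (u : G) (hu : u ∈ Γ.U) (t : G) (ht : t ∈ Γ.T) (hv : u * t ∈ Γ.V) : u = 1 ∧ t = 1 := by
  obtain ⟨d, hd⟩ := h.diag_T ht
  have h1 : t = 1 := h.inj (by
    rw [hd, map_one, ← diagonal_one]
    refine congrArg _ (funext fun a => ?_)
    have := diag_of (h.fl_V hv) a
    rwa [map_mul, hd, mul_diagonal, diag_of (h.fl_U hu) a, one_mul] at this)
  refine ⟨h.inj ?_, h1⟩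
  rw [h1, mul_one] at hv
  rw [map_one, ← sub_eq_zero]
  ext a b
  by_contra c
  have h2 := h.fl_U hu a b c
  have h3 := h.fl_V hv a b c
  dsimp only at h2 h3
  omega

theorem hw : Γ.HW (hwDim (fun a => R.wht (w a)) (R.A.det ^ 2).toNat)
    (R.lift (wtM (fun i a => w a i) fun a => R.wht (w a))) :=
  hw_of Γ ρ _ _ (fun u hu => ⟨diag_of (h.fl_U hu), fun a b e => or_iff_not_imp_left.2 fun c => by
    have := h.fl_U hu a b (by rwa [Matrix.sub_apply, one_apply_ne c, sub_zero])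
    dsimp only at this
    omega⟩) h.h_eq

theorem conj_X {S : Set R.Q} (i : Fin R.r) (t : kˣ) {g : G} (hg : g ∈ Γ.X S) :
    MulAut.conj (Γ.h i t) g ∈ Γ.X S := by
  refine (closure_le ((Γ.X S).comap (MulAut.conj (Γ.h i t)).toMonoidHom)).2 ?_ hg
  rintro _ ⟨γ, h1, hγ, u, rfl⟩
  exact subset_closure ⟨γ, h1, hγ, _, h.hx i t γ hγ u⟩

theorem comm [IsAlgClosed k] (γ : R.Q) (hγ : γ ∈ R.Φ) (δ : R.Q) (hδ : δ ∈ R.Φ) (h1 : 0 ≤ γ)
    (h2 : 0 ≤ δ) (t u : k) : Γ.x γ t * Γ.x δ u * (Γ.x γ t)⁻¹ * (Γ.x δ u)⁻¹ ∈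
      Γ.X {ε | ∃ a b : ℕ, 0 < a ∧ 0 < b ∧ ε = a • γ + b • δ} := by
  wlog hle : ∑ i, γ i ≤ ∑ i, δ i generalizing γ δ t u
  · have := inv_mem (this δ hδ γ hγ h2 h1 u t (le_of_not_ge hle))
    simp only [_root_.mul_inv_rev, inv_inv, ← mul_assoc] at this
    refine closure_mono ?_ this
    rintro _ ⟨ε, ⟨a, b, ha, hb, e⟩, g⟩
    exact ⟨ε, ⟨b, a, hb, ha, e.trans (add_comm _ _)⟩, g⟩
  rcases eq_or_ne γ δ with rfl | hne
  · rw [← h.add γ hγ, add_comm, h.add γ hγ, mul_inv_cancel_right, mul_inv_cancel]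
    exact one_mem _
  rcases eq_or_ne t 0 with rfl | ht
  · simp [h.x_zero hγ]
  rcases eq_or_ne u 0 with rfl | hu
  · simp [h.x_zero hδ]
  obtain ⟨L, g1, g2⟩ := h.rf.comm_int h.ok hδ hγ h2 h1 hne.symm hle
  have g3 : (Γ.x γ 1)⁻¹ * Γ.x δ 1 * Γ.x γ 1 * (Γ.x δ 1)⁻¹ =
      ((L.map fun e => (e.1, (e.2 : k))).map fun e => Γ.x e.1 e.2).prod := by
    rw [mul_assoc, mul_assoc, inv_mul_eq_iff_eq_mul, ← mul_assoc, ← h.x_neg hδ]
    refine h.inj ?_
    have := congrArg (Int.castRingHom k).mapMatrix g2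
    rw [map_mul, map_mul, map_mul, xm_map, xm_map, xm_map, map_neg, map_one, map_list_prod] at this
    rw [map_mul, map_mul, map_mul, h.prod_eq _ (List.forall_mem_map.2 fun e c => (g1 e c).1),
      h.x_eq γ hγ, h.x_eq δ hδ, h.x_eq δ hδ, this, List.map_map, List.map_map]
    exact congrArg _ (congrArg _ (List.map_congr_left fun e _ => xm_map _ _ _))
  have g4 : (Γ.x γ 1)⁻¹ * Γ.x δ 1 * Γ.x γ 1 * (Γ.x δ 1)⁻¹ ∈
      Γ.X {ε | ∃ a b : ℕ, 0 < a ∧ 0 < b ∧ ε = a • γ + b • δ} := by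
    rw [g3]
    refine list_prod_mem fun x hx => ?_
    simp only [List.map_map, List.mem_map, Function.comp] at hx
    obtain ⟨e, he, rfl⟩ := hx
    obtain ⟨c, a, b, ha, hb, c'⟩ := g1 e he
    exact subset_closure ⟨e.1, ⟨b, a, hb, ha, c'.trans (add_comm _ _)⟩, c, _, rfl⟩
  obtain ⟨i, j, hM⟩ := h.ok.exists_minor hγ hδ h1 h2 hne
  have root : ∀ x : k, x ≠ 0 → ∃ τ : kˣ,
      ((τ ^ (R.pr γ i * R.pr δ j - R.pr γ j * R.pr δ i) : kˣ) : k) = x := fun x hx => by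
    generalize R.pr γ i * R.pr δ j - R.pr γ j * R.pr δ i = M at hM
    obtain ⟨z, hz⟩ := IsAlgClosed.exists_pow_nat_eq x (Int.natAbs_pos.2 hM)
    have h0 : z ≠ 0 := fun c => hx (by rw [← hz, c, zero_pow (Int.natAbs_pos.2 hM).ne'])
    refine ⟨Units.mk0 z h0 ^ M.sign, ?_⟩
    rw [← zpow_mul, Int.sign_mul_self_eq_natAbs, zpow_natCast, Units.val_pow_eq_pow_val]
    exact hz
  obtain ⟨τ, hτ⟩ := root (-t) (neg_ne_zero.2 ht)
  obtain ⟨υ, hυ⟩ := root u hu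
  have g5 := h.conj_X i (τ ^ R.pr δ j * υ ^ (-R.pr γ j))
    (h.conj_X j (τ ^ (-R.pr δ i) * υ ^ R.pr γ i) g4)
  simp only [map_mul (MulAut.conj _), map_inv (MulAut.conj _)] at g5
  simp only [MulAut.conj_apply, h.hx _ _ γ hγ, h.hx _ _ δ hδ, mul_one, ← Units.val_mul] at g5
  have e1 : (τ ^ R.pr δ j * υ ^ (-R.pr γ j)) ^ R.pr γ i * (τ ^ (-R.pr δ i) * υ ^ R.pr γ i) ^
      R.pr γ j = τ ^ (R.pr γ i * R.pr δ j - R.pr γ j * R.pr δ i) := by
    simp only [mul_zpow, ← zpow_mul]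
    rw [mul_mul_mul_comm, ← zpow_add, ← zpow_add, show -R.pr γ j * R.pr γ i +
      R.pr γ i * R.pr γ j = 0 by ring, zpow_zero, mul_one]
    congr 1
    ring
  have e2 : (τ ^ R.pr δ j * υ ^ (-R.pr γ j)) ^ R.pr δ i * (τ ^ (-R.pr δ i) * υ ^ R.pr γ i) ^
      R.pr δ j = υ ^ (R.pr γ i * R.pr δ j - R.pr γ j * R.pr δ i) := by
    simp only [mul_zpow, ← zpow_mul]
    rw [mul_mul_mul_comm, ← zpow_add, ← zpow_add, show R.pr δ j * R.pr δ i +
      -R.pr δ i * R.pr δ j = 0 by ring, zpow_zero, one_mul]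
    congr 1
    ring
  rwa [e1, e2, hτ, hυ, h.x_neg hγ, inv_inv] at g5

end RG.Mat

/-- The weight is strictly dominant. -/
theorem RF.pr_pos (h : RF R w E) (hR : R.Ok) (i : Fin R.r) {K : Type} [CommRing K]
    {g : Matrix (Fin n) (Fin n) K} (hg : g.det ≠ 0)
    (hs : ∀ a b, g a b ≠ 0 → w a = w b - w b i • R.pr (R.α i)) :
    0 < R.pr (R.lift (wtM (fun i a => w a i) fun a => R.wht (w a))) i := by
  have hD : 0 < R.A.det ^ 2 := by have := hR.det; positivity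
  have h2 : R.pr (R.α i) i = 2 := by simp [RS.pr, RS.α, hR.diag]
  obtain ⟨τ, hτ⟩ := exists_perm hg
  rw [R.pr_lift]
  refine mul_pos hD (wtM_pos _ _ i τ hD (fun a => ?_) (fun a => ?_) ?_)
  · simp only [hs _ _ (hτ a), Pi.sub_apply, Pi.smul_apply, h2, smul_eq_mul]
    ring
  · have : -(w a i • R.pr (R.α i)) = R.pr (-w a i • R.α i) := by
      rw [← neg_smul]
      exact (smul_vecMul _ _ _).symm
    simp only [hs _ _ (hτ a), sub_eq_add_neg, this, R.wht_add, R.wht_pr]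
    simp [RS.α, Pi.single_apply, mul_comm]
  · obtain ⟨a, b, hab⟩ := h.exists_entry (hR.simple i) ℚ
    have := congrFun (h.deg _ (hR.simple i) a b fun c => hab (by rw [c, Int.cast_zero])) i
    rw [Pi.add_apply, h2] at this
    by_contra c
    push Not at c
    rw [c, c] at this
    omega

end Vale.Agent.P183CH
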