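import Vale.Agent.P183CH1B.RF
import Mathlib.Algebra.MvPolynomial.CommRing

/-!
Entries of products of root elements.
-/

namespace Vale.Agent.P183CH

open Matrix Finset

variable {R : RS} {n : ℕ} {w : Fin n → Fin R.r → ℤ} {E : R.Q → ℕ → Matrix (Fin n) (Fin n) ℤ}

theorem xm_map {K K' : Type} [CommRing K] [CommRing K'] (f : K →+* K')
    (F : ℕ → Matrix (Fin n) (Fin n) ℤ) (t : K) : f.mapMatrix (xm F t) = xm F (f t) := by
  ext a b
  simp [xm, Matrix.sum_apply]

theorem RS.Ok.pr_inj (hR : R.Ok) {γ δ : R.Q} (h : R.pr γ = R.pr δ) : γ = δ := by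
  have h1 : ∀ γ : R.Q, (γ ᵥ* R.A) ᵥ* R.A.adjugate = R.A.det • γ := fun γ => by
    rw [vecMul_vecMul, mul_adjugate, vecMul_smul, vecMul_one]
  have h2 : γ ᵥ* R.A = δ ᵥ* R.A := h
  exact smul_right_injective _ hR.det ((h1 γ).symm.trans (h2 ▸ h1 δ))

theorem RS.pr_nsmul (m : ℕ) (γ : R.Q) : R.pr (m • γ) = m • R.pr γ := by
  exact smul_vecMul m γ R.A

theorem RS.Ok.sum_pos (hR : R.Ok) {γ : R.Q} (hγ : γ ∈ R.Φ) (h : 0 ≤ γ) : 0 < ∑ i, γ i := by
  obtain ⟨i, hi⟩ := Function.ne_iff.1 (hR.sign γ hγ).1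
  exact sum_pos' (fun j _ => h j) ⟨i, mem_univ _, (h i).lt_of_ne' hi⟩

/-- The height filtration. -/
def Fl (ht : Fin n → ℤ) {K : Type} [CommRing K] (j : ℤ) (M : Matrix (Fin n) (Fin n) K) : Prop :=
  ∀ a b, M a b ≠ 0 → ht b + j ≤ ht a

section
variable {ht : Fin n → ℤ} {K : Type} [CommRing K] {i j : ℤ} {M N : Matrix (Fin n) (Fin n) K}

theorem Fl.mul (h : Fl ht i M) (h' : Fl ht j N) : Fl ht (i + j) (M * N) := fun a b e => by
  rw [Matrix.mul_apply] at e
  obtain ⟨c, -, hc⟩ := exists_ne_zero_of_sum_ne_zero e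
  have := h _ _ (left_ne_zero_of_mul hc)
  have := h' _ _ (right_ne_zero_of_mul hc)
  omega

theorem Fl.add (h : Fl ht i M) (h' : Fl ht i N) : Fl ht i (M + N) := fun a b e => by
  by_cases c : M a b = 0
  · exact h' a b fun c' => e (by rw [Matrix.add_apply, c, c', add_zero])
  · exact h a b c

theorem Fl.mono (h : Fl ht i M) (hj : j ≤ i) : Fl ht j M := fun a b e => by
  have := h a b e
  omega

theorem Fl.mul_sub (hi : 0 ≤ i) (h : Fl ht i (M - 1)) (h' : Fl ht i (N - 1)) :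
    Fl ht i (M * N - 1) := by
  have : M * N - 1 = (M - 1) * (N - 1) + ((M - 1) + (N - 1)) := by noncomm_ring
  rw [this]
  exact ((h.mul h').mono (by omega)).add (h.add h')

end

namespace RF

variable (h : RF R w E) {γ : R.Q} (hγ : γ ∈ R.Φ)
include h hγ

theorem zero : E γ 0 = 1 := by simpa using (h.pow γ hγ 0).symm

theorem big {m : ℕ} (hm : n ≤ m) : E γ m = 0 := by
  have := h.pow γ hγ m
  rw [pow_eq_zero_of_le hm (h.nil γ hγ)] at this
  ext a b
  exact (smul_eq_zero.1 (congrFun (congrFun this.symm a) b)).resolve_left m.factorial_ne_zero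

theorem deg' (m : ℕ) (a b : Fin n) (e : E γ m a b ≠ 0) : w a = w b + m • R.pr γ := by
  have key : ∀ m a, (E γ 1 ^ m) a b ≠ 0 → w a = w b + m • R.pr γ := fun m => by
    induction m with
    | zero => exact fun a e => by rw [show a = b from not_not.1 fun c => e (one_apply_ne c)]; simp
    | succ m ih =>
      intro a e
      rw [pow_succ', Matrix.mul_apply] at e
      obtain ⟨c, -, hc⟩ := exists_ne_zero_of_sum_ne_zero e
      rw [h.deg γ hγ _ _ (left_ne_zero_of_mul hc), ih _ (right_ne_zero_of_mul hc), succ_nsmul,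
        add_assoc]
  refine key m a ?_
  rw [h.pow γ hγ, Matrix.smul_apply]
  exact smul_ne_zero m.factorial_ne_zero e

theorem nilK (K : Type) [CommRing K] (c : K) :
    (c • (E γ 1).map (Int.cast : ℤ → K)) ^ n = 0 := by
  have := congrArg (Int.castRingHom K).mapMatrix (h.nil γ hγ)
  rw [map_pow, map_zero] at this
  rw [smul_pow]
  exact (congrArg _ this).trans (smul_zero _)

theorem exp_eq {K : Type} [CommRing K] [Algebra ℚ K] (c : K) :
    IsNilpotent.exp (c • (E γ 1).map (Int.cast : ℤ → K)) = xm (E γ) c := by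
  rw [IsNilpotent.exp_eq_sum (h.nilK hγ K c), xm]
  refine sum_congr rfl fun m _ => ?_
  have := congrArg (Int.castRingHom K).mapMatrix (h.pow γ hγ m)
  rw [map_pow, map_nsmul] at this
  rw [smul_pow, smul_comm]
  refine congrArg _ ((congrArg _ this).trans ?_)
  rw [← Nat.cast_smul_eq_nsmul ℚ, inv_smul_smul₀ (by positivity)]
  rfl

theorem add {K : Type} [CommRing K] (t u : K) :
    xm (E γ) (t + u) = xm (E γ) t * xm (E γ) u := by
  have h1 : ∀ t u : MvPolynomial Bool ℚ, xm (E γ) (t + u) = xm (E γ) t * xm (E γ) u := fun t u => by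
    rw [← h.exp_eq hγ, ← h.exp_eq hγ, ← h.exp_eq hγ, add_smul,
      IsNilpotent.exp_add_of_commute (((Commute.refl _).smul_left _).smul_right _)
        ⟨n, h.nilK hγ _ _⟩ ⟨n, h.nilK hγ _ _⟩]
  have h2 : ∀ t u : MvPolynomial Bool ℤ, xm (E γ) (t + u) = xm (E γ) t * xm (E γ) u := fun t u => by
    apply Matrix.map_injective (MvPolynomial.map_injective (Int.castRingHom ℚ) Int.cast_injective)
    change (MvPolynomial.map _).mapMatrix _ = (MvPolynomial.map _).mapMatrix _
    rw [map_mul, xm_map, xm_map, xm_map, map_add, h1]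
  have := congrArg (MvPolynomial.eval₂Hom (Int.castRingHom K) fun b => cond b t u).mapMatrix
    (h2 (MvPolynomial.X true) (MvPolynomial.X false))
  simpa only [map_mul, xm_map, map_add, MvPolynomial.eval₂Hom_X', cond] using this

theorem split {K : Type} [CommRing K] (t : K) : ∃ Z : Matrix (Fin n) (Fin n) K,
    xm (E γ) t - 1 = t • (E γ 1).map (Int.cast : ℤ → K) + Z ∧ (t = 0 → Z = 0) ∧
      ∀ a b, Z a b ≠ 0 → ∃ m : ℕ, 2 ≤ m ∧ w a = w b + m • R.pr γ := by
  refine ⟨∑ m ∈ range n, t ^ (m + 1 + 1) • (E γ (m + 1 + 1)).map (Int.cast : ℤ → K), ?_,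
    fun e => by simp [e], fun a b e => ?_⟩
  · have : xm (E γ) t = ∑ m ∈ range (n + 1 + 1), t ^ m • (E γ m).map (Int.cast : ℤ → K) := by
      rw [sum_range_succ, sum_range_succ, h.big hγ le_rfl, h.big hγ n.le_succ, xm]
      simp
    rw [this, sum_range_succ', sum_range_succ', h.zero hγ]
    simp [add_comm]
  · rw [Matrix.sum_apply] at e
    obtain ⟨m, -, hm⟩ := exists_ne_zero_of_sum_ne_zero e
    exact ⟨m + 1 + 1, by omega, h.deg' hγ _ a b fun c => hm (by simp [c])⟩

theorem xm_zero {K : Type} [CommRing K] : xm (E γ) (0 : K) = 1 := by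
  obtain ⟨Z, h1, h2, -⟩ := h.split hγ (0 : K)
  rw [h2 rfl, zero_smul, add_zero, sub_eq_zero] at h1
  exact h1

theorem supp {K : Type} [CommRing K] (t : K) (a b : Fin n) (e : (xm (E γ) t - 1) a b ≠ 0) :
    ∃ m : ℕ, 1 ≤ m ∧ w a = w b + m • R.pr γ := by
  obtain ⟨Z, h1, -, h3⟩ := h.split hγ t
  by_cases c : Z a b = 0
  · refine ⟨1, le_rfl, h.deg' hγ 1 a b fun c' => e ?_⟩
    rw [h1]
    simp [c, c']
  · obtain ⟨m, hm, h4⟩ := h3 a b c
    exact ⟨m, by omega, h4⟩

theorem exists_entry (k : Type) [Field k] : ∃ a b, (E γ 1 a b : k) ≠ 0 := by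
  obtain ⟨p, hp⟩ := CharP.exists k
  rcases CharP.char_is_prime_or_zero k p with h1 | rfl
  · obtain ⟨a, b, h2⟩ := h.prim γ hγ p h1
    exact ⟨a, b, fun c => h2 ((CharP.intCast_eq_zero_iff k p _).1 c)⟩
  · obtain ⟨a, b, h2⟩ := h.prim γ hγ 2 Nat.prime_two
    refine ⟨a, b, fun c => h2 ?_⟩
    have := (CharP.intCast_eq_zero_iff k 0 _).1 c
    rw [Nat.cast_zero, zero_dvd_iff] at this
    rw [this]
    exact dvd_zero _

theorem int_of {c : ℂ} (hc : ∀ a b, ∃ z : ℤ, c * E γ 1 a b = z) : ∃ z : ℤ, c = z := by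
  let I : Ideal ℤ :=
    { carrier := {m | ∃ z : ℤ, c * m = z}
      zero_mem' := ⟨0, by simp⟩
      add_mem' := fun ⟨x, hx⟩ ⟨y, hy⟩ => ⟨x + y, by push_cast; rw [mul_add, hx, hy]⟩
      smul_mem' := fun r m ⟨x, hx⟩ => ⟨r * x, by push_cast; rw [← hx]; simp; ring⟩ }
  obtain ⟨g, hg⟩ := (IsPrincipalIdealRing.principal I).principal
  by_cases h1 : g.natAbs = 1
  · have : (1 : ℤ) ∈ I := by
      rw [hg]
      exact Ideal.mem_span_singleton.2 (Int.isUnit_iff_natAbs_eq.2 h1).dvd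
    obtain ⟨z, hz⟩ := this
    exact ⟨z, by simpa using hz⟩
  · obtain ⟨l, hl, h2⟩ := Nat.exists_prime_and_dvd h1
    obtain ⟨a, b, h3⟩ := h.prim γ hγ l hl
    have : E γ 1 a b ∈ I := hc a b
    rw [hg] at this
    exact absurd ((Int.natCast_dvd.2 h2).trans (Ideal.mem_span_singleton.1 this)) h3

end RF

theorem wht_eq {a b : Fin n} {γ : R.Q} {m : ℕ} (e : w a = w b + m • R.pr γ) :
    R.wht (w a) = R.wht (w b) + R.A.det ^ 2 * (m * ∑ i, γ i) := by
  rw [e, R.wht_add, ← RS.pr_nsmul, R.wht_pr]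
  simp [mul_sum]

/-- The lowest component of a product of root elements. -/
theorem RF.prod_entry (h : RF R w E) (hR : R.Ok) {K : Type} [CommRing K] {ε : R.Q}
    (hs : 0 < ∑ i, ε i) : ∀ l : List (R.Q × K),
    (∀ e ∈ l, e.1 ∈ R.Φ ∧ (e.2 = 0 ∨ ∑ i, ε i ≤ ∑ i, e.1 i)) →
    Fl (fun a => R.wht (w a)) (R.A.det ^ 2 * ∑ i, ε i) ((l.map fun e => xm (E e.1) e.2).prod - 1) ∧
    ∀ a b, w a = w b + R.pr ε → ((l.map fun e => xm (E e.1) e.2).prod - 1) a b =
      (l.map fun e => if e.1 = ε then e.2 else 0).sum * E ε 1 a b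
  | [], _ => ⟨fun a b e => absurd (by simp) e, fun a b _ => by simp⟩
  | ⟨γ, t⟩ :: l, hl => by
    obtain ⟨h1, h2⟩ := h.prod_entry hR hs l fun e he => hl e (List.mem_cons_of_mem _ he)
    obtain ⟨hγ, h3⟩ := hl _ List.mem_cons_self
    have hD : 0 < R.A.det ^ 2 := by have := hR.det; positivity
    rw [List.map_cons, List.prod_cons, List.map_cons, List.sum_cons]
    dsimp only at hγ h3 ⊢
    rcases h3 with rfl | h3
    · rw [h.xm_zero hγ, one_mul, ite_self, zero_add]
      exact ⟨h1, h2⟩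
    have h4 : Fl (fun a => R.wht (w a)) (R.A.det ^ 2 * ∑ i, ε i) (xm (E γ) t - 1) := fun a b e => by
      obtain ⟨m, hm, h5⟩ := h.supp hγ t a b e
      have : (∑ i, ε i) ≤ m * ∑ i, γ i := by nlinarith
      have := mul_le_mul_of_nonneg_left this hD.le
      have := wht_eq h5
      dsimp only
      omega
    refine ⟨h4.mul_sub (by positivity) h1, fun a b e => ?_⟩
    have h5 := wht_eq (m := 1) (e.trans (by rw [one_smul]))
    have h6 : ((xm (E γ) t - 1) * ((l.map fun e => xm (E e.1) e.2).prod - 1)) a b = 0 := by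
      by_contra c
      have g := h4.mul h1 a b c
      have := mul_pos hD hs
      simp only [Nat.cast_one, one_mul] at h5 g
      omega
    have h7 : ∀ M N : Matrix (Fin n) (Fin n) K,
        M * N - 1 = (M - 1) * (N - 1) + ((M - 1) + (N - 1)) := fun M N => by noncomm_ring
    rw [h7, Matrix.add_apply, Matrix.add_apply, h6, zero_add, h2 a b e, add_mul]
    congr 1
    obtain ⟨Z, g1, -, g2⟩ := h.split hγ t
    have key : ∀ m : ℕ, w a = w b + m • R.pr γ → ε = m • γ := fun m c =>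
      hR.pr_inj (by rw [RS.pr_nsmul]; exact add_left_cancel (e.symm.trans c))
    have g3 : Z a b = 0 := by
      by_contra c
      obtain ⟨m, hm, c⟩ := g2 a b c
      have : ∑ i, ε i = m * ∑ i, γ i := by rw [key m c]; simp [mul_sum]
      have : (2 : ℤ) ≤ m := by exact_mod_cast hm
      nlinarith
    rw [g1, Matrix.add_apply, g3, add_zero, Matrix.smul_apply, Matrix.map_apply, smul_eq_mul]
    split_ifs with c
    · rw [c]
    · rw [show E γ 1 a b = 0 from not_not.1 fun c' =>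
        c (by rw [key 1 (h.deg' hγ 1 a b c'), one_smul]), Int.cast_zero, mul_zero, zero_mul]

theorem sum_ite_nodup {α K : Type} [DecidableEq α] [AddCommMonoid K] :
    ∀ l : List (α × K), (l.map Prod.fst).Nodup → ∀ e ∈ l,
      (l.map fun x => if x.1 = e.1 then x.2 else 0).sum = e.2
  | x :: l, hl, e, he => by
    rw [List.map_cons, List.nodup_cons] at hl
    rw [List.map_cons, List.sum_cons]
    rcases List.mem_cons.1 he with rfl | he
    · rw [if_pos rfl, List.sum_eq_zero, add_zero]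
      intro y hy
      obtain ⟨z, hz, rfl⟩ := List.mem_map.1 hy
      exact if_neg fun c : z.1 = e.1 => hl.1 (c ▸ List.mem_map_of_mem hz)
    · rw [if_neg fun c : x.1 = e.1 => hl.1 (c ▸ List.mem_map_of_mem he), zero_add, sum_ite_nodup l hl.2 e he]

end Vale.Agent.P183CH
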