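import Vale.Agent.P183CH.IF
import Mathlib.LinearAlgebra.Matrix.Adjugate
import Mathlib.LinearAlgebra.Matrix.Kronecker

/-!
Highest weight vectors in tensor powers.
-/

namespace Vale.Agent.P183CH

open Matrix Finset

section
variable {k G : Type} [Field k] [Group G]

/-- A representation of degree `d` with a common eigenvector of `S` for the eigenvalues `χ`. -/
def Eig (d : ℕ) (S : Set G) (χ : G → k) : Prop :=
  ∃ (ρ : G →* Matrix (Fin d) (Fin d) k) (v : Fin d → k), v ≠ 0 ∧ ∀ g ∈ S, ρ g *ᵥ v = χ g • v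

theorem Eig.of {ι : Type} [Fintype ι] [DecidableEq ι] {S : Set G} {χ : G → k}
    (ρ : G →* Matrix ι ι k) (v : ι → k) (hv : v ≠ 0) (h : ∀ g ∈ S, ρ g *ᵥ v = χ g • v) :
    Eig (Fintype.card ι) S χ := by
  let e := Fintype.equivFin ι
  refine ⟨(reindexAlgEquiv k k e).toMonoidHom.comp ρ, v ∘ e.symm, fun c => hv (funext fun a => ?_),
    fun g hg => ?_⟩
  · simpa using congrFun c (e a)
  · change (ρ g).submatrix e.symm e.symm *ᵥ (v ∘ e.symm) = _
    rw [submatrix_mulVec_equiv, Function.comp_assoc, Equiv.symm_symm, e.symm_comp_self,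
      Function.comp_id, h g hg]
    rfl

/-- The tensor product of a family of matrices. -/
def tens {J : Type} [Fintype J] {ι : J → Type} (g : ∀ j, Matrix (ι j) (ι j) k) :
    Matrix (∀ j, ι j) (∀ j, ι j) k := of fun a b => ∏ j, g j (a j) (b j)

theorem tens_mulVec {J : Type} [Fintype J] [DecidableEq J] {ι : J → Type} [∀ j, Fintype (ι j)]
    (g : ∀ j, Matrix (ι j) (ι j) k) (v : ∀ j, ι j → k) :
    (tens g *ᵥ fun b => ∏ j, v j (b j)) = fun a => ∏ j, (g j *ᵥ v j) (a j) := by
  funext a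
  simp only [mulVec, dotProduct, tens, of_apply, ← prod_mul_distrib, prod_univ_sum,
    Fintype.piFinset_univ]

/-- The tensor product of representations. -/
def tensH {J : Type} [Fintype J] [DecidableEq J] {ι : J → Type} [∀ j, Fintype (ι j)]
    [∀ j, DecidableEq (ι j)] (ρ : ∀ j, G →* Matrix (ι j) (ι j) k) :
    G →* Matrix (∀ j, ι j) (∀ j, ι j) k where
  toFun g := tens fun j => ρ j g
  map_one' := by
    ext a b
    simp [tens, one_apply, prod_ite_zero, funext_iff]
  map_mul' g h := by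
    ext a b
    simp only [tens, of_apply, map_mul, mul_apply, ← prod_mul_distrib, prod_univ_sum,
      Fintype.piFinset_univ]

theorem Eig.prod {J : Type} [Fintype J] {d : J → ℕ} {S : Set G} {χ : J → G → k}
    (h : ∀ j, Eig (d j) S (χ j)) : Eig (∏ j, d j) S fun g => ∏ j, χ j g := by
  classical
  choose ρ v hv hρ using h
  have := Eig.of (S := S) (χ := fun g => ∏ j, χ j g) (tensH ρ) (fun b => ∏ j, v j (b j)) (by
    choose a ha using fun j => Function.ne_iff.1 (hv j)
    exact Function.ne_iff.2 ⟨a, prod_ne_zero_iff.2 fun j _ => ha j⟩) fun g hg => by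
      change tens _ *ᵥ _ = _
      rw [tens_mulVec]
      funext a
      simp [hρ _ g hg, prod_mul_distrib]
  simpa using this

theorem eig_det {n : ℕ} (ρ : G →* Matrix (Fin n) (Fin n) k) (P : Fin n → Prop) [DecidablePred P]
    {S : Set G} (hS : ∀ g ∈ S, ∀ a b, ρ g a b ≠ 0 → P b → P a) :
    Eig (n ^ Fintype.card {a // P a}) S
      fun g => ((ρ g).submatrix (Subtype.val : {a // P a} → Fin n) Subtype.val).det := by
  let w : Matrix (Fin n) {a // P a} k → ({a // P a} → Fin n) → k :=
    fun M a => (M.submatrix a id).det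
  let Y : Matrix (Fin n) {a // P a} k := (1 : Matrix (Fin n) (Fin n) k).submatrix id Subtype.val
  have h1 : ∀ (g : Matrix (Fin n) (Fin n) k) M, (tens fun _ => g) *ᵥ w M = w (g * M) := by
    intro g M
    funext a
    simp only [w, ← det_transpose (submatrix _ _ _), det_apply', transpose_apply, submatrix_apply,
      id, mulVec, dotProduct, tens, of_apply, mul_apply, prod_univ_sum, Fintype.piFinset_univ,
      mul_sum, prod_mul_distrib]
    rw [sum_comm]
    exact sum_congr rfl fun _ _ => sum_congr rfl fun _ _ => mul_left_comm _ _ _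
  have := Eig.of (S := S) (tensH fun _ : {a // P a} => ρ) (w Y)
    (Function.ne_iff.2 ⟨Subtype.val, by
      simp only [w, Y, submatrix_submatrix, Function.id_comp, Function.comp_id]
      rw [submatrix_one _ Subtype.val_injective, det_one]
      exact one_ne_zero⟩)
    (χ := fun g => ((ρ g).submatrix (Subtype.val : {a // P a} → Fin n) Subtype.val).det)
    fun g hg => by
      change tens _ *ᵥ _ = _
      have h2 : ρ g * Y = Y * (ρ g).submatrix Subtype.val Subtype.val := by
        ext a b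
        simp only [Y, mul_apply, submatrix_apply, id, one_apply, mul_ite, mul_one, mul_zero,
          sum_ite_eq', mem_univ, if_true, ite_mul, one_mul, zero_mul]
        by_cases ha : P a
        · rw [sum_eq_single ⟨a, ha⟩ (fun c _ hc => if_neg fun e => hc (Subtype.ext e.symm))
            (by simp), if_pos rfl]
        · rw [sum_eq_zero fun c _ => if_neg fun e : a = c.1 => ha (e ▸ c.2)]
          by_contra c
          exact ha (hS g hg a b c b.2)
      rw [h1, h2]
      funext a
      simp only [w, Pi.smul_apply, smul_eq_mul]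
      rw [mul_comm, ← det_mul]
      rfl
  simpa using this

theorem det_tri {ι : Type} [Fintype ι] [DecidableEq ι] (ht : ι → ℤ) {u : Matrix ι ι k}
    (h1 : ∀ a, u a a = 1) (h2 : ∀ a b, u a b ≠ 0 → a = b ∨ ht b < ht a) : u.det = 1 := by
  rw [det_apply', sum_eq_single 1, Equiv.Perm.sign_one]
  · simp [h1]
  · intro σ _ hσ
    by_contra c
    have h3 := prod_ne_zero_iff.1 (right_ne_zero_of_mul c)
    obtain ⟨a, ha⟩ : ∃ a, σ a ≠ a := by
      by_contra c
      exact hσ (Equiv.ext fun a => not_not.1 fun e => c ⟨a, e⟩)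
    have h4 : ∑ a, ht a < ∑ a, ht (σ a) := sum_lt_sum (fun b hb => by
      rcases h2 _ _ (h3 b hb) with e | e
      · rw [e]
      · exact e.le) ⟨a, mem_univ _, (h2 _ _ (h3 a (mem_univ _))).resolve_left ha⟩
    rw [Equiv.sum_comp σ ht] at h4
    exact lt_irrefl _ h4
  · simp

end

/-- The weight of the highest weight vector. -/
def wtM {n r : ℕ} (μ : Fin r → Fin n → ℤ) (ht : Fin n → ℤ) (i : Fin r) : ℤ :=
  ∑ c, ∑ a : {a // ht c ≤ ht a}, μ i a

theorem wtM_pos {n r : ℕ} (μ : Fin r → Fin n → ℤ) (ht : Fin n → ℤ) (i : Fin r)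
    (τ : Equiv.Perm (Fin n)) {D : ℤ} (hD : 0 < D) (h1 : ∀ a, μ i (τ a) = -μ i a)
    (h2 : ∀ a, ht (τ a) = ht a - μ i a * D) (h3 : ∃ a, μ i a ≠ 0) : 0 < wtM μ ht i := by
  let N : Fin n → ℤ := fun a => ∑ c, if ht c ≤ ht a then 1 else 0
  have hN : ∀ a b, ht a < ht b → N a < N b := fun a b h => sum_lt_sum
    (fun c _ => by split_ifs <;> omega) ⟨b, mem_univ _, by rw [if_neg h.not_ge, if_pos le_rfl]; omega⟩
  have e1 : wtM μ ht i = ∑ a, N a * μ i a := by
    simp only [N, sum_mul, ite_mul, one_mul, zero_mul]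
    rw [sum_comm]
    exact sum_congr rfl fun c _ => by
      rw [← sum_filter, sum_subtype (p := fun a => ht c ≤ ht a) _ (by simp)]
  have e2 : wtM μ ht i = ∑ a, -(N (τ a) * μ i a) := by
    rw [e1, ← Equiv.sum_comp τ]
    simp [h1]
  have key : ∀ a, μ i a ≠ 0 → 0 < N a * μ i a + -(N (τ a) * μ i a) := fun a ha => by
    have := h2 a
    rcases lt_or_gt_of_ne ha with h | h
    · have := hN a (τ a) (by nlinarith)
      nlinarith
    · have := hN (τ a) a (by nlinarith)
      nlinarith
  have : 0 < wtM μ ht i + wtM μ ht i := by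
    conv_rhs => rw [e1, ← e1, e2, ← e2]
    nth_rw 1 [e1]
    rw [e2, ← sum_add_distrib]
    obtain ⟨a, ha⟩ := h3
    refine sum_pos' (fun b _ => ?_) ⟨a, mem_univ _, key a ha⟩
    by_cases hb : μ i b = 0
    · simp [hb]
    · exact (key b hb).le
  omega

/-- An invertible matrix has a permutation in its support. -/
theorem exists_perm {K ι : Type} [CommRing K] [Fintype ι] [DecidableEq ι] {g : Matrix ι ι K}
    (h : g.det ≠ 0) : ∃ τ : Equiv.Perm ι, ∀ a, g (τ a) a ≠ 0 := by
  rw [det_apply'] at h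
  obtain ⟨τ, -, hτ⟩ := exists_ne_zero_of_sum_ne_zero h
  exact ⟨τ, fun a c => right_ne_zero_of_mul hτ (prod_eq_zero (mem_univ a) c)⟩

namespace RS

variable (R : RS)

/-- A root lattice element whose pairings are `det A ^ 2` times the given numbers. -/
def lift (M : Fin R.r → ℤ) : R.Q := R.A.det • (M ᵥ* R.A.adjugate)

theorem pr_lift (M : Fin R.r → ℤ) (i : Fin R.r) : R.pr (R.lift M) i = R.A.det ^ 2 * M i := by
  rw [pr, lift, smul_vecMul, vecMul_vecMul, adjugate_mul, vecMul_smul, vecMul_one]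
  simp only [Pi.smul_apply, smul_eq_mul]
  ring

/-- The height of a weight, times `det A ^ 2`. -/
def wht (M : Fin R.r → ℤ) : ℤ := ∑ i, R.lift M i

theorem wht_add (M M' : Fin R.r → ℤ) : R.wht (M + M') = R.wht M + R.wht M' := by
  simp only [wht, lift, add_vecMul, smul_add, Pi.add_apply, sum_add_distrib]

theorem wht_pr (γ : R.Q) : R.wht (R.pr γ) = R.A.det ^ 2 * ∑ i, γ i := by
  have : R.lift (R.pr γ) = R.A.det ^ 2 • γ := by
    change R.A.det • ((γ ᵥ* R.A) ᵥ* R.A.adjugate) = _
    rw [vecMul_vecMul, mul_adjugate, vecMul_smul, vecMul_one, smul_smul, sq]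
  simp only [wht, this, Pi.smul_apply, smul_eq_mul, mul_sum]

end RS

theorem prod_zpow_sum {M ι : Type} [CommGroup M] (t : M) (s : Finset ι) (f : ι → ℤ) :
    ∏ a ∈ s, t ^ f a = t ^ ∑ a ∈ s, f a := by
  classical
  induction s using Finset.induction_on with
  | empty => simp
  | insert a s ha ih => rw [prod_insert ha, sum_insert ha, ih, zpow_add]

/-- The degree of the representation. -/
def hwDim {n : ℕ} (ht : Fin n → ℤ) (D : ℕ) : ℕ :=
  (∏ c, n ^ Fintype.card {a // ht c ≤ ht a}) ^ D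

theorem hw_of {R : RS} {k G : Type} [Field k] [Group G] (Γ : RG R k G) {n : ℕ}
    (ρ : G →* Matrix (Fin n) (Fin n) k) (μ : Fin R.r → Fin n → ℤ) (ht : Fin n → ℤ)
    (hU : ∀ u ∈ Γ.U, (∀ a, ρ u a a = 1) ∧ ∀ a b, ρ u a b ≠ 0 → a = b ∨ ht b < ht a)
    (hh : ∀ i t, ρ (Γ.h i t) = diagonal fun a => ((t ^ μ i a : kˣ) : k)) :
    Γ.HW (hwDim ht (R.A.det ^ 2).toNat) (R.lift (wtM μ ht)) := by
  let S : Set G := Γ.U ∪ {g | ∃ i t, g = Γ.h i t}
  have hS : ∀ c, ∀ g ∈ S, ∀ a b, ρ g a b ≠ 0 → ht c ≤ ht b → ht c ≤ ht a := by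
    rintro c g (hg | ⟨i, t, rfl⟩) a b h1 h2
    · rcases (hU g hg).2 a b h1 with rfl | e
      · exact h2
      · omega
    · rw [hh] at h1
      rwa [show a = b from not_not.1 fun e => h1 (diagonal_apply_ne _ e)]
  obtain ⟨σ, v, hv, h⟩ := Eig.prod (J := Fin (R.A.det ^ 2).toNat) fun _ =>
    Eig.prod fun c => eig_det ρ (fun a => ht c ≤ ht a) (hS c)
  rw [RG.HW, hwDim, ← Fin.prod_const]
  refine ⟨σ.toHomUnits, v, hv, fun u hu => ?_, fun i t => ?_⟩
  · refine (h u (Or.inl hu)).trans ?_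
    have : ∀ c, ((ρ u).submatrix (Subtype.val : {a // ht c ≤ ht a} → Fin n)
        Subtype.val).det = 1 := fun c => det_tri (fun a => ht a.1)
      (fun a => (hU u hu).1 a) fun a b e => ((hU u hu).2 a b e).imp_left Subtype.ext
    simp only [this, prod_const_one, one_smul]
  · refine (h _ (Or.inr ⟨i, t, rfl⟩)).trans (congrArg (· • v) ?_)
    have : ∀ c, ((ρ (Γ.h i t)).submatrix (Subtype.val : {a // ht c ≤ ht a} → Fin n)
        Subtype.val).det = ((t ^ ∑ a : {a // ht c ≤ ht a}, μ i a : kˣ) : k) := fun c => by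
      rw [hh, submatrix_diagonal _ _ Subtype.val_injective, det_diagonal, ← prod_zpow_sum]
      simp
    simp only [this, Fin.prod_const]
    rw [R.pr_lift, mul_comm, zpow_mul, wtM, ← Units.coe_prod, prod_zpow_sum,
      ← Units.val_pow_eq_pow_val, ← zpow_natCast, Int.toNat_of_nonneg (sq_nonneg _)]

end Vale.Agent.P183CH
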