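import Mathlib.RingTheory.Nilpotent.Exp
import Mathlib.Algebra.Polynomial.Derivative
import Mathlib.Algebra.Polynomial.AlgebraMap
import Mathlib.Algebra.Algebra.Bilinear
import Mathlib.Data.Complex.Basic
import Mathlib.Data.Matrix.Basic
import Mathlib.Tactic

/-!
The exponential of an element of a nilpotent Lie algebra of matrices is a product of exponentials of
basis elements.
-/

namespace Vale.Agent.P183CH

open IsNilpotent Polynomial

theorem exp_conj_mem {K P : Type} [CommRing K] [Ring P] [Algebra K P] [Algebra ℚ K] [Algebra ℚ P]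
    [IsScalarTower ℚ K P] (W : Submodule K P) {x : P} (hx : IsNilpotent x)
    (h : ∀ y ∈ W, x * y - y * x ∈ W) {y : P} (hy : y ∈ W) : exp x * y * exp (-x) ∈ W := by
  let L : Module.End K P := LinearMap.mulLeft K x
  let R : Module.End K P := LinearMap.mulRight K (-x)
  obtain ⟨N, hN⟩ := hx
  have hN' : (-x) ^ N = 0 := by rw [neg_pow, hN, mul_zero]
  have hL : L ^ N = 0 := by simp only [L, LinearMap.pow_mulLeft, hN, LinearMap.mulLeft_zero_eq_zero]
  have hR : R ^ N = 0 := by
    simp only [R, LinearMap.pow_mulRight, hN', LinearMap.mulRight_zero_eq_zero]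
  have hc : Commute L R := LinearMap.commute_mulLeft_right x (-x)
  have h1 : exp (L + R) y = exp x * y * exp (-x) := by
    rw [exp_add_of_commute hc ⟨N, hL⟩ ⟨N, hR⟩, exp_eq_sum hL, exp_eq_sum hR, exp_eq_sum hN,
      exp_eq_sum hN', Module.End.mul_apply, mul_assoc]
    simp only [LinearMap.sum_apply, LinearMap.smul_apply, L, R, LinearMap.pow_mulLeft,
      LinearMap.pow_mulRight, LinearMap.mulLeft_apply, LinearMap.mulRight_apply, Finset.sum_mul,
      Finset.mul_sum, smul_mul_assoc, mul_smul_comm, Finset.smul_sum]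
    rw [Finset.sum_comm]
    exact Finset.sum_congr rfl fun _ _ => Finset.sum_congr rfl fun _ _ => smul_comm _ _ _
  rw [← h1, exp, LinearMap.sum_apply]
  refine W.sum_mem fun i hi => ?_
  rw [LinearMap.smul_apply]
  refine W.smul_of_tower_mem _ ?_
  clear hi
  induction i with
  | zero => exact hy
  | succ i ih =>
    rw [pow_succ', Module.End.mul_apply]
    simpa [L, R, sub_eq_add_neg] using h _ ih

variable {n : Type} [Fintype n] [DecidableEq n]

/-- Constant matrices. -/
noncomputable abbrev cst : Matrix n n ℂ →+* Matrix n n ℂ[X] := (C : ℂ →+* ℂ[X]).mapMatrix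

/-- Evaluation. -/
noncomputable abbrev ev (a : ℂ) : Matrix n n ℂ[X] →+* Matrix n n ℂ := (evalRingHom a).mapMatrix

/-- The derivative. -/
noncomputable def dd (g : Matrix n n ℂ[X]) : Matrix n n ℂ[X] := g.map derivative

omit [DecidableEq n] in
theorem dd_mul (g h : Matrix n n ℂ[X]) : dd (g * h) = dd g * h + g * dd h := by
  ext1 a b
  simp [dd, Matrix.mul_apply, Finset.sum_add_distrib]

theorem ev_smul (a : ℂ) (c : ℂ[X]) (e : Matrix n n ℂ) : ev a (c • cst e) = c.eval a • e := by
  ext1 i j
  simp

theorem nil_smul (c : ℂ[X]) {e : Matrix n n ℂ} (he : IsNilpotent e) : IsNilpotent (c • cst e) :=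
  (he.map cst).smul c

theorem dd_exp (c : ℂ[X]) {e : Matrix n n ℂ} (he : IsNilpotent e) :
    dd (exp (c • cst e)) = derivative c • cst e * exp (c • cst e) := by
  obtain ⟨N, hN⟩ := he
  have h1 : (c • cst e) ^ N = 0 := by rw [smul_pow, ← map_pow, hN, map_zero, smul_zero]
  have h2 : (c • cst e) ^ (N + 1) = 0 := by rw [_root_.pow_succ, h1, zero_mul]
  conv_lhs => rw [exp_eq_sum h2, Finset.sum_range_succ']
  rw [exp_eq_sum h1, Finset.mul_sum]
  ext1 a b
  simp only [dd, Matrix.map_apply, Matrix.add_apply, Matrix.sum_apply, map_add, map_sum,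
    mul_smul_comm, smul_pow, smul_mul_assoc, ← map_pow, ← map_mul, Matrix.smul_apply,
    derivative_smul, pow_zero]
  have h0 : derivative ((1 : Matrix n n ℂ[X]) a b) = 0 := by
    rw [Matrix.one_apply]
    split_ifs <;> simp
  rw [h0, smul_zero, add_zero]
  refine Finset.sum_congr rfl fun i _ => ?_
  rw [← pow_succ', RingHom.mapMatrix_apply, Matrix.map_apply, smul_eq_mul, smul_eq_mul,
    smul_eq_mul, derivative_mul, derivative_C, mul_zero, add_zero, derivative_pow_succ,
    Nat.factorial_succ, Nat.cast_mul, mul_inv, mul_comm _ (i.factorial : ℚ)⁻¹, mul_smul]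
  congr 1
  have : (C ((i : ℂ) + 1) : ℂ[X]) = ((i + 1 : ℕ) : ℚ) • 1 := by
    rw [Nat.cast_smul_eq_nsmul]
    simp
  rw [this, smul_mul_assoc, smul_mul_assoc, smul_mul_assoc, inv_smul_smul₀ (by positivity)]
  ring

theorem exists_prim (a : ℂ[X]) : ∃ c : ℂ[X], derivative c = a ∧ c.eval 0 = 0 := by
  induction a using Polynomial.induction_on' with
  | add p q hp hq =>
    obtain ⟨c, h1, h2⟩ := hp
    obtain ⟨d, h3, h4⟩ := hq
    exact ⟨c + d, by rw [map_add, h1, h3], by rw [eval_add, h2, h4, add_zero]⟩
  | monomial m a =>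
    refine ⟨monomial (m + 1) (a / (m + 1)), ?_, by simp⟩
    rw [derivative_monomial_succ, div_mul_cancel₀ _ (by exact_mod_cast m.succ_ne_zero)]

/-- The adjoint map of each member of the list preserves the span of the later members. -/
def Chain : List (Matrix n n ℂ) → Prop
  | [] => True
  | e :: l => IsNilpotent e ∧
      (∀ y ∈ l, e * y - y * e ∈ Submodule.span ℂ {z | z ∈ l}) ∧ Chain l

theorem path : ∀ (l : List (Matrix n n ℂ)), Chain l → ∀ g h : Matrix n n ℂ[X], h * g = 1 →
    ev 0 g = 1 → dd g * h ∈ Submodule.span ℂ[X] (cst '' {z | z ∈ l}) →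
    ∃ c : List ℂ, c.length = l.length ∧
      ev 1 g = (List.zipWith (fun (c : ℂ) e => exp (c • e)) c l).prod
  | [], _, g, h, h1, h2, h3 => by
    refine ⟨[], rfl, ?_⟩
    have h4 : dd g * h = 0 := by simpa using h3
    have h5 : dd g = 0 := by rw [← mul_one (dd g), ← h1, ← mul_assoc, h4, zero_mul]
    rw [List.zipWith_nil_left, List.prod_nil, ← h2]
    ext a b
    have h6 := eq_C_of_derivative_eq_zero (p := g a b) (congrFun (congrFun h5 a) b)
    simp only [RingHom.mapMatrix_apply, Matrix.map_apply, coe_evalRingHom]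
    rw [h6, eval_C, eval_C]
  | e :: l, ⟨he, hl, hc⟩, g, h, h1, h2, h3 => by
    have hs : cst '' {z | z ∈ e :: l} = insert (cst e) (cst '' {z | z ∈ l}) := by
      rw [← Set.image_insert_eq]
      congr 1
      ext z
      simp
    rw [hs, Submodule.mem_span_insert] at h3
    obtain ⟨a, y, hy, h3⟩ := h3
    obtain ⟨c, hc1, hc0⟩ := exists_prim a
    have hn := nil_smul c he
    have hn' := nil_smul (-c) he
    have e1 : exp (c • cst e) * exp ((-c) • cst e) = 1 := by
      rw [neg_smul, exp_mul_exp_neg_self hn]
    have e2 : exp ((-c) • cst e) * exp (c • cst e) = 1 := by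
      rw [neg_smul, exp_neg_mul_exp_self hn]
    have h1' : g * h = 1 := mul_eq_one_comm.1 h1
    have hcm : exp ((-c) • cst e) * cst e = cst e * exp ((-c) • cst e) := by
      rw [exp, Finset.sum_mul, Finset.mul_sum]
      refine Finset.sum_congr rfl fun i _ => ?_
      rw [smul_mul_assoc, mul_smul_comm, (((Commute.refl (cst e)).smul_left (-c)).pow_left i).eq]
    obtain ⟨cs, h4, h5⟩ := path l hc (exp ((-c) • cst e) * g) (h * exp (c • cst e))
      (by rw [mul_assoc, ← mul_assoc (exp _), e1, one_mul, h1])
      (by rw [map_mul, h2, map_exp hn', ev_smul, eval_neg, hc0, neg_zero, zero_smul, exp_zero,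
        mul_one]) (by
      have : dd (exp ((-c) • cst e) * g) * (h * exp (c • cst e)) =
          exp ((-c) • cst e) * y * exp (-((-c) • cst e)) := by
        rw [dd_mul, dd_exp _ he, add_mul, mul_assoc _ g, ← mul_assoc g, h1', one_mul, mul_assoc, e2,
          mul_assoc, ← mul_assoc (dd g), h3, add_mul, mul_add, smul_mul_assoc a, mul_smul_comm,
          ← mul_assoc, hcm, mul_assoc (cst e), e2, map_neg, hc1, neg_smul, neg_smul, neg_neg,
          mul_one, mul_one, neg_add_cancel_left, mul_assoc]
      rw [this]
      refine exp_conj_mem _ hn' (fun z hz => ?_) hy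
      rw [smul_mul_assoc, mul_smul_comm, ← smul_sub]
      refine Submodule.smul_mem _ _ ?_
      induction hz using Submodule.span_induction with
      | mem z hz =>
        obtain ⟨z, hz, rfl⟩ := hz
        rw [← map_mul, ← map_mul, ← map_sub]
        have := hl z hz
        generalize e * z - z * e = w at this
        induction this using Submodule.span_induction with
        | mem w hw => exact Submodule.subset_span ⟨w, hw, rfl⟩
        | zero => simp
        | add u v _ _ hu hv => rw [map_add]; exact add_mem hu hv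
        | smul r u _ hu =>
          have : cst (r • u) = C r • cst u := by
            ext1 i j
            simp
          rw [this]
          exact Submodule.smul_mem _ _ hu
      | zero => simp
      | add u v _ _ hu hv => rw [mul_add, add_mul, add_sub_add_comm]; exact add_mem hu hv
      | smul r u _ hu =>
        rw [smul_mul_assoc, mul_smul_comm, ← smul_sub]
        exact Submodule.smul_mem _ _ hu)
    refine ⟨c.eval 1 :: cs, by simp [h4], ?_⟩
    rw [List.zipWith_cons_cons, List.prod_cons, ← h5, ← ev_smul, ← map_exp hn, ← map_mul,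
      ← mul_assoc, e1, one_mul]

/-- The exponential of a nilpotent element of the span is a product of exponentials. -/
theorem exp_eq_prod {l : List (Matrix n n ℂ)} (hl : Chain l) {y : Matrix n n ℂ}
    (hn : IsNilpotent y) (hy : y ∈ Submodule.span ℂ {z | z ∈ l}) :
    ∃ c : List ℂ, c.length = l.length ∧
      exp y = (List.zipWith (fun (c : ℂ) e => exp (c • e)) c l).prod := by
  have h1 := nil_smul X hn
  obtain ⟨c, h2, h3⟩ := path l hl (exp ((X : ℂ[X]) • cst y)) (exp (-((X : ℂ[X]) • cst y)))
    (exp_neg_mul_exp_self h1) (by rw [map_exp h1, ev_smul, eval_X, zero_smul, exp_zero]) (by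
      rw [dd_exp _ hn, mul_assoc, exp_mul_exp_neg_self h1, mul_one, derivative_X, one_smul]
      clear h1 hn
      induction hy using Submodule.span_induction with
      | mem w hw => exact Submodule.subset_span ⟨w, hw, rfl⟩
      | zero => simp
      | add u v _ _ hu hv => rw [map_add]; exact add_mem hu hv
      | smul r u _ hu =>
        have : cst (r • u) = C r • cst u := by
          ext1 i j
          simp
        rw [this]
        exact Submodule.smul_mem _ _ hu)
  exact ⟨c, h2, by rw [← h3, map_exp h1, ev_smul, eval_X, one_smul]⟩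

end Vale.Agent.P183CH
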