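import Vale.Agent.P183CH1B.HW
import Vale.Agent.P183CH1B.Path

/-!
Integral root families.
-/

namespace Vale.Agent.P183CH

open Matrix Finset

/-- `∑ t ^ m E m`. -/
def xm {n : ℕ} {k : Type} [CommRing k] (E : ℕ → Matrix (Fin n) (Fin n) ℤ) (t : k) :
    Matrix (Fin n) (Fin n) k :=
  ∑ m ∈ range n, t ^ m • (E m).map (Int.cast : ℤ → k)

/-- Root vectors with integral divided powers; `w a` is the weight of the basis vector `a`. -/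
structure RF (R : RS) {n : ℕ} (w : Fin n → Fin R.r → ℤ)
    (E : R.Q → ℕ → Matrix (Fin n) (Fin n) ℤ) : Prop where
  deg : ∀ γ ∈ R.Φ, ∀ a b, E γ 1 a b ≠ 0 → w a = w b + R.pr γ
  pow : ∀ γ ∈ R.Φ, ∀ m, E γ 1 ^ m = m.factorial • E γ m
  nil : ∀ γ ∈ R.Φ, E γ 1 ^ n = 0
  prim : ∀ γ ∈ R.Φ, ∀ l : ℕ, l.Prime → ∃ a b, ¬ (l : ℤ) ∣ E γ 1 a b
  br : ∀ γ ∈ R.Φ, ∀ δ ∈ R.Φ, 0 ≤ γ → 0 ≤ δ → ∃ c : ℂ, (γ + δ ∉ R.Φ → c = 0) ∧
    (E γ 1 * E δ 1 - E δ 1 * E γ 1).map (Int.cast : ℤ → ℂ) =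
      c • (E (γ + δ) 1).map (Int.cast : ℤ → ℂ)

/-- `Γ` is given by the root family `E` in the faithful representation `ρ`. -/
structure RG.Mat {R : RS} {k G : Type} [Field k] [Group G] (Γ : RG R k G) {n : ℕ}
    (ρ : G →* Matrix (Fin n) (Fin n) k) (w : Fin n → Fin R.r → ℤ)
    (E : R.Q → ℕ → Matrix (Fin n) (Fin n) ℤ) : Prop where
  ok : R.Ok
  rf : RF R w E
  inj : Function.Injective ρ
  x_eq : ∀ γ ∈ R.Φ, ∀ t, ρ (Γ.x γ t) = xm (E γ) t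
  h_eq : ∀ i t, ρ (Γ.h i t) = diagonal fun a => ((t ^ w a i : kˣ) : k)

end Vale.Agent.P183CH
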