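import Vale.Agent.P183CH1B.CM
import Mathlib.Analysis.Complex.Polynomial.Basic

/-!
Uniform constants for the data of bounded degree.
-/

namespace Vale.Agent.P183CH

open Matrix Finset Subgroup

variable {R : RS} {n : ℕ} {w : Fin n → Fin R.r → ℤ} {E : R.Q → ℕ → Matrix (Fin n) (Fin n) ℤ}

theorem RS.pr_alpha (i j : Fin R.r) : R.pr (R.α i) j = R.A i j := by simp [RS.pr, RS.α]

theorem RS.Ok.neg_alpha (hR : R.Ok) (i : Fin R.r) : -R.α i ∈ R.Φ := by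
  have := hR.refl i _ (hR.simple i)
  rwa [RS.s, RS.pr_alpha, hR.diag, two_smul, sub_add_cancel_left] at this

theorem RF.xm_supp (h : RF R w E) {γ : R.Q} (hγ : γ ∈ R.Φ) {K : Type} [CommRing K] (t : K)
    {a b : Fin n} (e : xm (E γ) t a b ≠ 0) : ∃ m : ℕ, m < n ∧ w a = w b + m • R.pr γ := by
  rw [xm, Matrix.sum_apply] at e
  obtain ⟨m, h1, hm⟩ := exists_ne_zero_of_sum_ne_zero e
  exact ⟨m, mem_range.1 h1, h.deg' hγ _ a b fun c => hm (by simp [c])⟩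

namespace RG.Mat

variable {G : Type} [Group G] {Γ : RG R ℂ G} {ρ : G →* Matrix (Fin n) (Fin n) ℂ}
  (h : Γ.Mat ρ w E) (hΓ : Γ.Ok)
include h hΓ

theorem n_supp (i : Fin R.r) (a b : Fin n) (e : ρ (Γ.n i) a b ≠ 0) :
    w a = w b - w b i • R.pr (R.α i) := by
  have key : ∀ j, w b j = w a j - R.A i j * w a i := fun j => by
    let t : ℂˣ := Units.mk0 2 two_ne_zero
    have h1 := congrArg ρ (mul_inv_eq_iff_eq_mul.1 (hΓ.nh i j t))
    rw [map_mul, map_mul, map_mul, h.h_eq, h.h_eq, diagonal_mul_diagonal] at h1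
    have h2 := congrFun (congrFun h1 a) b
    rw [mul_diagonal, diagonal_mul, mul_comm, ← Units.val_mul, ← zpow_mul, ← zpow_add] at h2
    have h3 := congrArg (fun z : ℂ => ‖z‖) (mul_right_cancel₀ e h2)
    simp only [t, Units.val_zpow_eq_zpow_val, Units.val_mk0, norm_zpow, Complex.norm_ofNat] at h3
    have := zpow_right_injective₀ two_pos (by norm_num) h3
    linarith
  have := key i
  rw [h.ok.diag] at this
  funext j
  rw [Pi.sub_apply, Pi.smul_apply, RS.pr_alpha, key j, this, smul_eq_mul]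
  ring

omit h hΓ in
theorem n_det (i : Fin R.r) : (ρ (Γ.n i)).det ≠ 0 :=
  ((Matrix.isUnit_iff_isUnit_det _).1 ((Group.isUnit _).map ρ)).ne_zero

theorem w_bound (b : Fin n) (i : Fin R.r) : w b i ∈ Finset.Icc (-(2 * n : ℤ)) (2 * n) := by
  obtain ⟨τ, hτ⟩ := exists_perm (n_det (Γ := Γ) (ρ := ρ) i)
  have h1 := congrFun (h.n_supp hΓ i _ _ (hτ b)) i
  have h2 := hτ b
  rw [RG.n, map_mul, map_mul, h.x_eq _ (h.ok.simple i), h.x_eq _ (h.ok.neg_alpha i),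
    Matrix.mul_apply] at h2
  obtain ⟨c, -, h2⟩ := exists_ne_zero_of_sum_ne_zero h2
  obtain ⟨m₃, g3, e3⟩ := h.rf.xm_supp (h.ok.simple i) _ (right_ne_zero_of_mul h2)
  have h3 := left_ne_zero_of_mul h2
  rw [Matrix.mul_apply] at h3
  obtain ⟨d, -, h3⟩ := exists_ne_zero_of_sum_ne_zero h3
  obtain ⟨m₂, g2, e2⟩ := h.rf.xm_supp (h.ok.neg_alpha i) _ (right_ne_zero_of_mul h3)
  obtain ⟨m₁, g1, e1⟩ := h.rf.xm_supp (h.ok.simple i) _ (left_ne_zero_of_mul h3)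
  have e1 := congrFun e1 i
  have e2 := congrFun e2 i
  have e3 := congrFun e3 i
  have : R.pr (-R.α i) i = -R.pr (R.α i) i := congrFun (neg_vecMul _ _) i
  simp only [Pi.add_apply, Pi.sub_apply, Pi.smul_apply, this, RS.pr_alpha, h.ok.diag]
    at h1 e1 e2 e3
  simp only [smul_eq_mul, nsmul_eq_mul] at h1 e1 e2 e3
  rw [mem_Icc]
  omega

end RG.Mat

theorem RF.exists_diff (h : RF R w E) {γ : R.Q} (hγ : γ ∈ R.Φ) : ∃ a b, R.pr γ = w a - w b := by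
  obtain ⟨a, b, hab⟩ := h.exists_entry hγ ℚ
  exact ⟨a, b, by rw [h.deg γ hγ a b fun c => hab (by rw [c, Int.cast_zero]), add_sub_cancel_left]⟩

theorem RF.rank_le (h : RF R w E) (hR : R.Ok) : R.r ≤ n * n := by
  choose a b hab using fun i => h.exists_diff (hR.simple i)
  simpa using Fintype.card_le_of_injective (fun i => (a i, b i)) fun i j e => by
    obtain ⟨e1, e2⟩ := Prod.mk.inj e
    have := congrFun (hR.pr_inj ((hab i).trans (by rw [hab j, ← e1, ← e2]))) i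
    by_contra c
    simp [RS.α, c] at this

theorem RF.sq_le (h : RF R w E) (hR : R.Ok) (ht : Fin n → ℤ) :
    n * n ≤ hwDim ht (R.A.det ^ 2).toNat := by
  obtain ⟨a, b, hab⟩ := h.exists_diff (hR.simple ⟨0, hR.pos⟩)
  have h1 : a ≠ b := by
    rintro rfl
    have := congrFun hab ⟨0, hR.pos⟩
    simp [RS.pr_alpha, hR.diag] at this
  have h2 : 1 < n := by simpa using Fintype.one_lt_card_iff.2 ⟨a, b, h1⟩
  have h3 : 0 < R.A.det ^ 2 := by have := hR.det; positivity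
  refine le_trans ?_ (Nat.le_self_pow (by omega) _)
  refine le_trans ?_ (prod_le_prod' (f := fun _ => n) fun c _ =>
    Nat.le_self_pow (Fintype.card_pos_iff.2 ⟨⟨c, le_rfl⟩⟩).ne' n)
  rw [Fin.prod_const, ← sq]
  exact Nat.pow_le_pow_right (by omega) h2

theorem finite_data (n r : ℕ) : Set.Finite
    {x : Matrix (Fin r) (Fin r) ℤ × (Fin n → Fin r → ℤ) × Finset (Fin r → ℤ) |
      (RS.mk r x.1 x.2.2).Ok ∧ (∀ a i, x.2.1 a i ∈ Finset.Icc (-(2 * n : ℤ)) (2 * n)) ∧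
      ∀ γ ∈ x.2.2, ∃ a b, γ ᵥ* x.1 = x.2.1 a - x.2.1 b} := by
  have h1 : Set.Finite {w : Fin n → Fin r → ℤ | ∀ a i, w a i ∈ Finset.Icc (-(2 * n : ℤ)) (2 * n)} :=
    Set.Finite.pi' fun _ => Set.Finite.pi' fun _ => Finset.finite_toSet _
  have h2 : ∀ w : Fin n → Fin r → ℤ, Set.Finite {v | ∃ a b, v = w a - w b} := fun w =>
    (Set.finite_range fun x : Fin n × Fin n => w x.1 - w x.2).subset
      fun _ ⟨a, b, e⟩ => ⟨(a, b), e.symm⟩
  have h3 : ∀ w : Fin n → Fin r → ℤ,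
      Set.Finite {A : Matrix (Fin r) (Fin r) ℤ | ∀ i, ∃ a b, A i = w a - w b} := fun w =>
    Set.Finite.pi' fun _ => h2 w
  have h4 : ∀ (w : Fin n → Fin r → ℤ) (A : Matrix (Fin r) (Fin r) ℤ), Set.Finite
      {Φ : Finset (Fin r → ℤ) | (RS.mk r A Φ).Ok ∧ ∀ γ ∈ Φ, ∃ a b, γ ᵥ* A = w a - w b} := by
    intro w A
    by_cases c : ∃ Φ, (RS.mk r A Φ).Ok
    · obtain ⟨Φ₀, h0⟩ := c
      have h5 : Set.Finite ((· ᵥ* A) ⁻¹' {v | ∃ a b, v = w a - w b}) :=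
        (h2 w).preimage fun γ _ δ _ e => h0.pr_inj e
      exact (h5.finite_subsets.preimage Finset.coe_injective.injOn).subset fun Φ h => h.2
    · exact Set.finite_empty.subset fun Φ h => c ⟨Φ, h.1⟩
  refine (h1.biUnion fun w _ => (h3 w).biUnion fun A _ =>
    (h4 w A).image fun Φ => (A, w, Φ)).subset ?_
  rintro ⟨A, w, Φ⟩ ⟨g1, g2, g3⟩
  simp only [Set.mem_iUnion]
  refine ⟨w, g2, A, fun i => ?_, Φ, ⟨g1, g3⟩, rfl⟩
  obtain ⟨a, b, e⟩ := g3 _ (g1.simple i)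
  exact ⟨a, b, (funext fun j => (RS.pr_alpha (R := RS.mk r A Φ) i j).symm).trans e⟩

/-- The uniform form of `chev_of`. -/
theorem chev_unif {Ψ : ℕ → ∀ (S : Type) [Group S], Prop} (h1 : CH1M) (h2 : AbsLie Ψ) (N : ℕ) :
    ∃ c n₀ : ℕ, ∀ (S : Type) [Group S], IsSimpleGroup S → (∃ D : Chev, D.n ≤ N ∧ IsChev D S) →
      n₀ < Nat.card S → ∃ c' ≤ c, Ψ c' S := by
  classical
  choose c q hc using h2
  let d : ∀ (R : RS) {n : ℕ}, (Fin n → Fin R.r → ℤ) → ℕ := fun R _ w =>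
    hwDim (fun a => R.wht (w a)) (R.A.det ^ 2).toNat
  let m : ∀ (R : RS) {n : ℕ}, (Fin n → Fin R.r → ℤ) → R.Q := fun R _ w =>
    R.lift (wtM (fun i a => w a i) fun a => R.wht (w a))
  let F : ∀ (R : RS) {n : ℕ}, (Fin n → Fin R.r → ℤ) → ℕ := fun R _ w =>
    if h : R.Ok ∧ ∀ i, 0 < R.pr (m R w) i then
      c R (d R w) (m R w) h.1 h.2 + q R (d R w) (m R w) h.1 h.2 ^ d R w else 0
  choose B hB using fun n r => ((finite_data n r).image
    fun x => F (RS.mk r x.1 x.2.2) x.2.1).bddAbove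
  refine ⟨∑ n ∈ range (N + 1), ∑ r ∈ range (N * N + 1), B n r,
    ∑ n ∈ range (N + 1), ∑ r ∈ range (N * N + 1), B n r, ?_⟩
  rintro S _ hS ⟨D, hD, p, _, σ, hσ, ⟨ε⟩⟩ hcard
  obtain ⟨R, w, E, h1⟩ := h1 D
  obtain ⟨Γ₀, g1, g2, -⟩ := h1 ℂ
  obtain ⟨Γ, hM, hΓ, h1⟩ := h1 (AlgebraicClosure (ZMod p))
  obtain ⟨π, a, e, f, hs⟩ := h1 p σ hσ
  have hpos : ∀ i, 0 < R.pr (m R w) i := fun i =>
    g1.rf.pr_pos g1.ok i (RG.Mat.n_det i) (g1.n_supp g2 i)
  have hF : F R w ≤ ∑ n ∈ range (N + 1), ∑ r ∈ range (N * N + 1), B n r :=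
    (hB D.n R.r ⟨(R.A, w, R.Φ), ⟨g1.ok, g1.w_bound g2, fun γ hγ => g1.rf.exists_diff hγ⟩, rfl⟩).trans
      ((single_le_sum (f := B D.n) (fun _ _ => Nat.zero_le _) (mem_range.2 (Nat.lt_succ_of_le
        ((g1.rf.rank_le g1.ok).trans (Nat.mul_le_mul hD hD))))).trans
        (single_le_sum (f := fun n => ∑ r ∈ range (N * N + 1), B n r) (fun _ _ => Nat.zero_le _)
          (mem_range.2 (Nat.lt_succ_of_le hD))))
  simp only [F, dif_pos (And.intro g1.ok hpos)] at hF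
  have hs' : Γ.St p σ π a e f (d R w) := { hs with
    card := hs.card.trans (Nat.pow_le_pow_right (Nat.pow_pos (Fact.out : p.Prime).pos)
      (g1.rf.sq_le g1.ok _)) }
  refine ⟨_, (Nat.le_add_right _ _).trans hF, hc R _ _ g1.ok hpos p _ Γ σ π a e f hΓ hM.hw hs' ?_ S hS ⟨ε⟩⟩
  have hle : (fixP p σ : Set (D.grp (AlgebraicClosure (ZMod p)))) ⊆ {g | σ g = g} :=
    (closure_le (MonoidHom.eqLocus σ (MonoidHom.id _))).2 fun g hg => hg.1
  have hf : Finite (fixP p σ) := (hs.fin.subset hle).to_subtype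
  have h3 : Nat.card S ≤ Nat.card (fixP p σ) := by
    rw [Nat.card_congr ε.toEquiv]
    exact Nat.card_le_card_of_surjective _ (QuotientGroup.mk'_surjective _)
  exact lt_of_pow_lt_pow_left₀ (d R w) (Nat.zero_le _)
    (lt_of_le_of_lt ((Nat.le_add_left _ _).trans hF)
    (hcard.trans_le (h3.trans ((Set.ncard_le_ncard hle hs.fin).trans hs'.card))))

end Vale.Agent.P183CH
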